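import Vale.Agent.P290Z.Nk.Defs
import Vale.Agent.P267.H815.Div
import Vale.Agent.P267.H815.Coord
import Vale.Agent.P273.H599.Inj

/-! P290Z, part III, block N1: the parametrisation of a smooth rational curve. -/

set_option linter.unusedVariables false
set_option linter.unusedSectionVars false

open scoped Manifold ContDiff Topology
open Set Filter

noncomputable section

namespace Vale.Agent.P290Z.Nk.N1

open Vale.Agent.P290 Vale.Agent.P267
open Vale.Agent.P290.H445 (φ)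

variable (X : W.K3)

theorem diff_of_fl {g : ℂ → X.X} {u : ℂ} (hg : MDifferentiableAt 𝓘(ℂ) 𝓘(ℂ, FL.C2) g u) {p : X.X}
    (hp : g u ∈ (chartAt FL.C2 p).source) :
    DifferentiableAt ℂ (fun z => chartAt FL.C2 p (g z)) u := by
  have : IsManifold 𝓘(ℂ, FL.C2) 1 X.X := IsManifold.of_le (n := ω) le_top
  exact mdifferentiableAt_iff_differentiableAt.1
    ((mdifferentiableAt_atlas (I := 𝓘(ℂ, FL.C2)) (chart_mem_atlas FL.C2 p) hp).comp u hg)

theorem md_of_fl {g : ℂ → X.X} {u : ℂ} (hg : MDifferentiableAt 𝓘(ℂ) 𝓘(ℂ, FL.C2) g u) :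
    MD g u := by
  have h1 := (φ.symm : FL.C2 →L[ℂ] ℂ × ℂ).differentiableAt.comp u
    (diff_of_fl X hg (mem_chart_source FL.C2 (g u)))
  rw [MD, mdifferentiableAt_iff]
  exact ⟨hg.continuousAt, h1.differentiableWithinAt⟩

theorem imm_of_fl {D : EffDiv X.X}
    (hD : ∀ x, ∀ y ∈ D.U x, D.f x y = 0 → mfderiv 𝓘(ℂ, FL.C2) 𝓘(ℂ) (D.f x) y ≠ 0)
    {g : ℂ → X.X} (hg : MDifferentiable 𝓘(ℂ) 𝓘(ℂ, FL.C2) g) (hi : Function.Injective g)
    (hs : ∀ z, g z ∈ D.supp) (u : ℂ) : deriv (fun z => chartAt C2 (g u) (g z)) u ≠ 0 := by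
  intro h0
  have hp : g u ∈ (chartAt FL.C2 (g u)).source := mem_chart_source _ _
  have hf := H815.holN_f D (g u) (D.mem (g u))
  obtain ⟨e, he1, -, he3, he4, -⟩ := H815.exists_coord hf.analyticAt
    ((H815.mfderiv_ne_zero_iff (g u) hp hf.self).1 (hD _ _ (D.mem _) (hs u)))
  have hG := diff_of_fl X (hg u) hp
  have h1 : ∀ᶠ z in 𝓝 u, g z ∈ (chartAt FL.C2 (g u)).source ∧ g z ∈ D.U (g u) ∧
      chartAt FL.C2 (g u) (g z) ∈ e.source :=
    ((hg u).continuousAt.eventually ((chartAt FL.C2 (g u)).open_source.mem_nhds hp)).and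
      (((hg u).continuousAt.eventually (H815.mem_nhds D _)).and
        (hG.continuousAt.eventually (e.open_source.mem_nhds he1)))
  obtain ⟨U, hU, hUo, huU⟩ := eventually_nhds_iff.1 h1
  have h2 : ∀ z ∈ U, (e (chartAt FL.C2 (g u) (g z))).1 = 0 := fun z hz => by
    rw [he3 _ (hU z hz).2.2, Function.comp_apply, (chartAt FL.C2 (g u)).left_inv (hU z hz).1]
    exact (H815.mem_supp_iff D (hU z hz).2.1).1 (hs z)
  refine P273.H599.injOn_deriv_ne_zero (f := fun z => (e (chartAt FL.C2 (g u) (g z))).2) hUo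
    (fun z hz => ?_) (fun z hz z' hz' h => ?_) huU ?_
  · exact (((he4 _ (hU z hz).2.2).differentiableAt.comp z
      (diff_of_fl X (hg z) (hU z hz).1)).snd).differentiableWithinAt
  · exact hi ((chartAt FL.C2 (g u)).injOn (hU z hz).1 (hU z' hz').1
      (e.injOn (hU z hz).2.2 (hU z' hz').2.2 (Prod.ext (by rw [h2 z hz, h2 z' hz']) h)))
  · have h3 : DifferentiableAt ℂ (fun z => chartAt C2 (g u) (g z)) u :=
      (φ.symm : FL.C2 →L[ℂ] ℂ × ℂ).differentiableAt.comp u hG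
    have h4 : HasDerivAt (fun z => chartAt FL.C2 (g u) (g z)) (φ 0) u := by
      have := h3.hasDerivAt
      rw [h0] at this
      exact (φ : ℂ × ℂ →L[ℂ] FL.C2).hasFDerivAt.comp_hasDerivAt u this
    rw [map_zero] at h4
    have h5 := (he4 _ he1).differentiableAt.hasFDerivAt.comp_hasDerivAt u h4
    rw [map_zero] at h5
    exact ((ContinuousLinearMap.snd ℂ ℂ ℂ).hasFDerivAt.comp_hasDerivAt u h5).deriv

theorem exists_rc {D : EffDiv X.X} (h : D.IsSmoothRational) : ∃ C : RC X.X, C.supp = D.supp := by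
  obtain ⟨hD, ψ, h1, h2, h3⟩ := h
  have h4 : ∀ u, u ≠ 0 → ψ.f₁ u = ψ.f₀ u⁻¹ := fun u hu => by
    rw [ψ.glue _ (inv_ne_zero hu), inv_inv]
  have h5 : Function.Injective ψ.f₁ := by
    intro u v huv
    by_cases hu : u = 0
    · by_contra hv
      exact h2 ⟨v⁻¹, by rw [← h4 v (fun h => hv (hu.trans h.symm)), ← huv, hu]⟩
    · by_cases hv : v = 0
      · exact absurd ⟨u⁻¹, by rw [← h4 u hu, huv, hv]⟩ h2
      · rw [h4 u hu, h4 v hv] at huv
        exact inv_injective (h1 huv)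
  have h6 : ∀ z, ψ.f₀ z ∈ D.supp := fun z => by
    rw [h3]
    exact Or.inl ⟨z, rfl⟩
  have h7 : ∀ z, ψ.f₁ z ∈ D.supp := fun z => by
    by_cases hz : z = 0
    · rw [h3, hz]
      exact Or.inr rfl
    · rw [h4 z hz]
      exact h6 _
  refine ⟨⟨fun b => cond b ψ.f₀ ψ.f₁, fun b u => ?_, fun b u => ?_, fun b u hu => ?_,
    fun b => ?_, fun u hu => h2 ⟨u, hu⟩⟩, ?_⟩
  · cases b
    · exact md_of_fl X (ψ.holo₁ u)
    · exact md_of_fl X (ψ.holo₀ u)
  · cases b
    · exact imm_of_fl X hD ψ.holo₁ h5 h7 u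
    · exact imm_of_fl X hD ψ.holo₀ h1 h6 u
  · cases b
    · exact (h4 u hu).symm
    · exact (ψ.glue u hu).symm
  · cases b
    · exact h5
    · exact h1
  · ext x
    constructor
    · rintro ⟨b, u, rfl⟩
      cases b
      · exact h7 u
      · exact h6 u
    · rw [h3]
      rintro (⟨z, rfl⟩ | rfl)
      · exact ⟨true, z, rfl⟩
      · exact ⟨false, 0, rfl⟩

end Vale.Agent.P290Z.Nk.N1
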