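import Vale.Agent.P290Z.W.H445IntK
import Vale.Agent.P290Z.W.H470C2
import Vale.Agent.P267.H815.Prime

/-! P290Z, part III, block N1: irreducible curves of square `-2` on a K3 surface are smooth and
rational. -/

set_option linter.unusedVariables false
set_option linter.unusedSectionVars false

open scoped Manifold ContDiff ComplexConjugate Topology
open Set Filter

noncomputable section

namespace Vale.Agent.P290Z.Nk.N1

open Vale.Agent.P290 Vale.Agent.P267 Vale.Agent.P267.FL Vale.Agent.P267.RR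
open Vale.Agent.P290Z.W.H445 (Om OmC Om_ne_zero Reg0_Om Reg2_OmC H01)

section gen

variable {X : Type} [TopologicalSpace X] [ChartedSpace FL.C2 X] [IsManifold 𝓘(ℂ, FL.C2) ω X]
variable {ι : Type} [Fintype ι] [DecidableEq ι]

/-- the conjugate vector -/
def cj (v : EuclideanSpace ℂ ι) : EuclideanSpace ℂ ι := WithLp.toLp 2 fun k => conj (v k)

theorem act_cj {L : LB X ι} {x : X} {v : EuclideanSpace ℂ ι} (hv : LB.act (L.P x) v = v) :
    LB.act (L.dual.P x) (cj v) = cj v := by
  by_cases h0 : v = 0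
  · have : cj v = 0 := by
      ext k
      simp [cj, h0]
    rw [this, act_zero]
  · have : cj v = H365.nq v • H365.dfr v := by
      ext k
      have := H365.nq_ne_zero h0
      simp only [cj, PiLp.smul_apply, H365.dfr_apply, smul_eq_mul]
      field_simp
    rw [this, H365.act_smul, H365.act_dfr hv h0]

theorem at0_cj {v : X → EuclideanSpace ℂ ι} {x : X} (hv : At0 ∞ 0 v x) :
    At0 ∞ 0 (fun y => cj (v y)) x := by
  rw [At0, LB.loc0_zero] at hv ⊢
  have h1 : ContDiffAt ℝ ∞ (fun z => fun i => conj (v ((chartAt FL.C2 x).symm z) i))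
      (chartAt FL.C2 x x) := contDiffAt_pi.2 fun i =>
    (Complex.conjCLE.contDiff.contDiffAt).comp _
      (((PiLp.proj (𝕜 := ℝ) 2 (fun _ : ι => ℂ) i).contDiff.contDiffAt).comp _ hv)
  exact ((PiLp.continuousLinearEquiv 2 ℝ (fun _ : ι => ℂ)).symm.contDiff.contDiffAt).comp _ h1

end gen

variable (X : W.K3) {ι : Type} [Fintype ι] [DecidableEq ι] {D : EffDiv X.X}

theorem h0_dual (A : H451.DivLB D ι) (hne : D.supp.Nonempty) : h0 A.L.dual (-A.a) 0 = 0 := by
  have : H0 A.L.dual (-A.a) 0 = ⊥ := by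
    rw [eq_bot_iff]
    intro w hw
    obtain ⟨h1, h2⟩ := (mem_H0 _ _ _).1 hw
    have h3 := H365.dbar0_pair A 0 h1
    rw [h2] at h3
    obtain ⟨c, hc⟩ := W.H445.const_of_hol X (H445.holOn_of_dbar (H365.pair0_mem A 0 h1).1
      fun x i => by rw [h3]; simp [H365.pair1, H365.pr])
    obtain ⟨p, hp⟩ := hne
    have h4 : c = 0 := by
      rw [← hc p, H365.pair0, (H365.s_eq_zero_iff A p).2 hp, H365.pr_zero_right]
    exact H365.pair0_inj A 0 h1 (funext fun x => by rw [hc, h4]; rfl)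
  rw [h0, this, finrank_bot]

theorem rational (hS : SerreStmt X.X) (hR : RRStmt X.X) (h : H01 X) (hP : H823.Prime D)
    (A : H451.DivLB D ι) (hi : isec A.L.dual A.L.dual = -2) : D.IsSmoothRational := by
  have hI := W.H445.intFactsK X
  have e2 : h2 A.L.dual (-A.a) 0 = 1 := by
    have e := W.H445.chi_eq X hS hR h A.L.dual A.hol.dual
    rw [hi, chi, h0_dual X A hP.nonempty, H470.h1_zero_of_le _ _ _ (H470.z1_le_b1 A hP h)] at e
    have e' : ((h2 A.L.dual (-A.a) 0 : ℕ) : ℂ) = 1 := by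
      push_cast at e
      linear_combination e
    exact_mod_cast e'
  have hreg : ∀ b : X.X → ℂ, Reg2 ∞ 0 b → Reg2 ∞ 1 fun x => Om X x * b x := fun b hb => by
    simpa using H445.Reg2.smul' (Reg0_Om X) hb
  let lam : A2 A.L.dual 0 →ₗ[ℂ] ℂ :=
    { toFun := fun v => intX (fun x => Om X x * H365.pair0 A v.1 x)
      map_add' := fun v w => by
        rw [← hI.add _ _ (hreg _ (H365.pair2_mem A 0 v.2).1) (hreg _ (H365.pair2_mem A 0 w.2).1)]
        congr 1
        funext x
        rw [Submodule.coe_add, H365.pair0_add, Pi.add_apply, mul_add]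
      map_smul' := fun c v => by
        rw [RingHom.id_apply, smul_eq_mul, ← hI.smul c _ (hreg _ (H365.pair2_mem A 0 v.2).1)]
        congr 1
        funext x
        rw [Submodule.coe_smul, H365.pair0_smul, Pi.smul_apply, smul_eq_mul]
        ring }
  have hker : (B2 A.L.dual (-A.a) 0).comap (A2 A.L.dual 0).subtype ≤ LinearMap.ker lam := by
    intro v hv
    obtain ⟨w, hw, hwv⟩ := (mem_B2 _ _ _).1 hv
    rw [LinearMap.mem_ker]
    change intX (fun x => Om X x * H365.pair0 A v.1 x) = 0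
    have h1 : H365.pair0 A v.1 = dbar1 0 (H365.pair1 A w) := by
      rw [H365.dbar1_pair A 0 hw, hwv]
      rfl
    rw [h1]
    exact W.H445.intX_dbar1 X hI (H365.pair1_mem A 0 hw).1
  let lam' : H2 A.L.dual (-A.a) 0 →ₗ[ℂ] ℂ := Submodule.liftQ _ lam hker
  let v0 : A2 A.L.dual 0 := ⟨fun x => OmC X x • cj (A.s x), reg2_iff_at.2 fun x => by
      simpa using At2.bilin' (B := ContinuousLinearMap.lsmul ℂ ℂ) ((Reg2_OmC X).at x)
        (at0_cj (A.s_reg.at x)),
    fun x => by rw [H365.act_smul, act_cj (A.s_sec x)]⟩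
  have hv0 : lam v0 ≠ 0 := by
    have h1 : (fun x => Om X x * H365.pair0 A v0.1 x) =
        fun x => ((Complex.normSq (Om X x) * ‖A.s x‖ ^ 2 : ℝ) : ℂ) := by
      funext x
      have h2 : H365.pair0 A v0.1 x = OmC X x * H365.nq (A.s x) := by
        change H365.pr (OmC X x • cj (A.s x)) (A.s x) = _
        rw [H365.pr_smul_left]
        rfl
      rw [h2, H365.nq_eq, OmC, ← mul_assoc, Complex.mul_conj]
      push_cast
      ring
    have h2 := hreg _ (H365.pair2_mem A 0 v0.2).1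
    change intX (fun x => Om X x * H365.pair0 A v0.1 x) ≠ 0
    rw [h1] at h2 ⊢
    obtain ⟨p, -⟩ := hP.nonempty
    obtain ⟨z, hz, hzU⟩ := ((H365.freq_ne (D := D) p).and_eventually (H815.mem_nhds D p)).exists
    have h3 := H533.intX_re_pos (fun e he => (h2 e he).continuousOn)
      (HasCompactSupport.of_compactSpace _)
      (fun x => mul_nonneg (Complex.normSq_nonneg _) (sq_nonneg _)) (x₀ := z)
      (mul_pos (Complex.normSq_pos.2 (Om_ne_zero X z))
        (pow_pos (norm_pos_iff.2 ((H365.s_ne_iff A hzU).2 hz)) 2))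
    intro h0
    rw [h0] at h3
    exact lt_irrefl _ h3
  let q : A2 A.L.dual 0 →ₗ[ℂ] H2 A.L.dual (-A.a) 0 := Submodule.mkQ _
  have hq : ∀ s, lam' (q s) = lam s := fun s => Submodule.liftQ_apply _ _ _
  have hv : q v0 ≠ 0 := fun h => hv0 (by rw [← hq, h, map_zero])
  have h1 := (finrank_eq_one_iff_of_nonzero' (q v0) hv).1 e2
  refine H815.smoothRational_of_H1 D hP.nonempty hP.conn.isPreconnected hP.fin.countable hP.dense
    fun b hb hb2 => ?_
  obtain ⟨v, hv, hvb⟩ := H365.pair2_surj A 0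
    (H815.mem_of_i2 (reg2_iff_at.2 fun x => (hb.at x).dbar (by simp)) hb2)
  obtain ⟨c, hc⟩ := h1 (q ⟨v, hv⟩)
  have hc0 : c = 0 := by
    have h2 := congrArg lam' hc
    have h3 : lam ⟨v, hv⟩ = 0 := by
      change intX (fun x => Om X x * H365.pair0 A v x) = 0
      rw [hvb]
      exact W.H445.intX_dbar1 X hI hb
    rw [map_smul, hq, hq, h3, smul_eq_mul] at h2
    exact (mul_eq_zero.1 h2).resolve_right hv0
  rw [hc0, zero_smul] at hc
  have h3 : (⟨v, hv⟩ : A2 A.L.dual 0) ∈ (B2 A.L.dual (-A.a) 0).comap (A2 A.L.dual 0).subtype :=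
    (Submodule.Quotient.mk_eq_zero _).1 hc.symm
  obtain ⟨w, hw, hwv⟩ := (mem_B2 _ _ _).1 h3
  have hwv' : A.L.dual.db1 (-A.a) 0 w = v := hwv
  have hc1 := H365.pair1_mem A 0 hw
  have hc2 : dbar1 0 (H365.pair1 A w) = dbar1 0 b := by
    rw [H365.dbar1_pair A 0 hw, hwv', hvb]
  obtain ⟨t, ht, ht2⟩ := h (fun x => b x - H365.pair1 A w x)
    (reg1_iff_at.2 fun x => (hb.at x).sub (hc1.1.at x)) fun x => by
      rw [dbar1_sub ((hb.at x).of_le (by simp)) ((hc1.1.at x).of_le (by simp)), hc2, sub_self]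
  refine ⟨t, ht, H815.i1_of_mem ?_⟩
  have h5 : (fun x => b x - dbar0 0 t x) = H365.pair1 A w := by
    funext x i
    rw [Pi.sub_apply, ht2, Pi.sub_apply, sub_sub_cancel]
  rw [h5]
  exact hc1

end Vale.Agent.P290Z.Nk.N1
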