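import Vale.Agent.P267.H821.Exist
import Vale.Agent.P267.H662.KTens
import Vale.Agent.P267.H365.Dual

/-! P290Z, part III, block N1: frames of tensor products and duals; a section of the square of a
line bundle with a given divisor. -/

set_option linter.unusedVariables false
set_option linter.unusedSectionVars false

open scoped Manifold ContDiff ComplexConjugate Topology
open Set Filter

noncomputable section

namespace Vale.Agent.P290Z.Nk.N1

open Vale.Agent.P267 Vale.Agent.P267.FL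
open Vale.Agent.P267.H821 (HolFrame coef coef_smul coef_hol coef_eq_zero exists_holFrame)
open Vale.Agent.P267.H662 (tens)
open Vale.Agent.P267.H365 (dfr pr)

variable {X : Type} [TopologicalSpace X] [ChartedSpace C2 X] [IsManifold 𝓘(ℂ, C2) ω X]
variable {ι : Type} [Fintype ι] [DecidableEq ι] {ι' : Type} [Fintype ι'] [DecidableEq ι']
variable {L : LB X ι} {L' : LB X ι'} {a a' : X → Fin 2 → ℂ} {U : Set X}
  {e : X → EuclideanSpace ℂ ι} {e' : X → EuclideanSpace ℂ ι'}

theorem fr_at (h : HolFrame L a U e) {x : X} (hx : x ∈ U) : At0 ∞ 0 e x := by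
  rw [At0, LB.loc0_zero]
  refine h.reg _ (chart_mem_atlas C2 x) _ (mem_chart_target C2 x) ?_
  rwa [(chartAt C2 x).left_inv (mem_chart_source C2 x)]

theorem fr_mk (hU : IsOpen U) (h1 : ∀ x ∈ U, At0 ∞ 0 e x)
    (h2 : ∀ x ∈ U, LB.act (L.P x) (e x) = e x) (h3 : ∀ x ∈ U, e x ≠ 0)
    (h4 : ∀ x ∈ U, L.db0 a 0 e x = 0) : HolFrame L a U e := by
  refine ⟨hU, fun c hc z hz hzU => ?_, h2, h3, h4⟩
  have := (h1 _ hzU).chart hc (c.map_target hz)
  rwa [LB.loc0_zero, c.right_inv hz] at this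

theorem fr_mono (h : HolFrame L a U e) {V : Set X} (hV : IsOpen V) (hVU : V ⊆ U) :
    HolFrame L a V e :=
  fr_mk hV (fun x hx => fr_at h (hVU hx)) (fun x hx => h.sec x (hVU hx))
    (fun x hx => h.ne x (hVU hx)) fun x hx => h.hol x (hVU hx)

theorem fr_tens (h : HolFrame L a U e) (h' : HolFrame L' a' U e') :
    HolFrame (L.tensor L') (a + a') U fun y => tens ι ι' (e y) (e' y) := by
  refine fr_mk h.isOpen (fun x hx => ?_) (fun x hx => ?_) (fun x hx h0 => ?_) fun x hx => ?_
  · exact At0.bilin (B := tens ι ι') (fr_at h hx) (fr_at h' hx)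
  · rw [H662.tensor_P, H662.act_kron, h.sec x hx, h'.sec x hx]
  · obtain ⟨i, hi⟩ : ∃ i, e x i ≠ 0 := by
      by_contra hc
      push Not at hc
      exact h.ne x hx (PiLp.ext hc)
    obtain ⟨j, hj⟩ : ∃ j, e' x j ≠ 0 := by
      by_contra hc
      push Not at hc
      exact h'.ne x hx (PiLp.ext hc)
    exact mul_ne_zero hi hj (congrArg (fun v : EuclideanSpace ℂ (ι × ι') => v (i, j)) h0)
  · funext i
    have := H662.db0_tens (a := a) (a' := a') ((fr_at h hx).of_le (by simp))
      ((fr_at h' hx).of_le (by simp)) (h.sec x hx) (h'.sec x hx) i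
    rw [h.hol x hx, h'.hol x hx] at this
    simpa using this

theorem fr_dual (h : HolFrame L a U e) : HolFrame L.dual (-a) U fun y => dfr (e y) := by
  refine fr_mk h.isOpen (fun x hx => H365.at0_dfr (fr_at h hx) (h.ne x hx))
    (fun x hx => H365.act_dfr (h.sec x hx) (h.ne x hx)) (fun x hx h0 => ?_) fun x hx => ?_
  · have := H365.pr_dfr (h.ne x hx)
    rw [h0, H365.pr_zero_left] at this
    exact zero_ne_one this
  · funext j
    have h1 := H365.dbar0_pr_hol (H365.at0_dfr (fr_at h hx) (h.ne x hx)) (fr_at h hx)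
      (H365.act_dfr (h.sec x hx) (h.ne x hx)) (h.sec x hx) (fun j => congrFun (h.hol x hx) j) j
    have h2 : (fun y => pr (dfr (e y)) (e y)) =ᶠ[𝓝 x] fun _ => (1 : ℂ) := by
      filter_upwards [h.isOpen.mem_nhds hx] with y hy using H365.pr_dfr (h.ne y hy)
    rw [dbar0_congr h2, dbar0_const] at h1
    have h3 : LB.act (L.dual.P x) (L.dual.db0 (-a) 0 (fun y => dfr (e y)) x j) =
        L.dual.db0 (-a) 0 (fun y => dfr (e y)) x j := by
      rw [LB.db0, H821.act_add, H365.act_smul, H365.act_dfr (h.sec x hx) (h.ne x hx),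
        H821.act_act, L.dual.idem]
    rw [H365.dual_eq (h.sec x hx) (h.ne x hx) h3, ← h1]
    simp

theorem fr_div {D : EffDiv X} (A : H451.DivLB D ι) (x : X) : HolFrame A.L A.a (D.U x) (A.v x) :=
  fr_mk (D.isOpen x) (fun y hy => H365.v_at A hy) (A.v_sec x) (A.v_ne x)
    fun y hy => funext (A.v_hol x y hy)

/-- a section of `L ⊗ L` with the divisor `D` -/
theorem exists_S (ha : L.IsHol a) {D : EffDiv X} (A : H451.DivLB D ι')
    {u : X → EuclideanSpace ℂ ((ι × ι) × ι')}
    (hu : HolFrame ((L.tensor L).tensor A.L.dual) (a + a + -A.a) univ u) :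
    ∃ S : X → ι → ι → ℂ, ∀ x, ∃ (V : Set X) (e : X → EuclideanSpace ℂ ι) (g : X → ℂ), x ∈ V ∧
      V ⊆ D.U x ∧ HolFrame L a V e ∧ HolOn 0 g V ∧
      ∀ y ∈ V, g y ≠ 0 ∧ ∀ j k, S y j k = g y * D.f x y * (e y j * e y k) := by
  refine ⟨fun y j k => ∑ r, u y ((j, k), r) * A.s y r, fun x => ?_⟩
  obtain ⟨W, e, hx, he⟩ := exists_holFrame ha x
  have hV := he.isOpen.inter (D.isOpen x)
  have he' := fr_mono he hV inter_subset_left
  have hT := fr_tens (fr_tens he' he') (fr_dual (fr_mono (fr_div A x) hV inter_subset_right))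
  have hr : Reg0 ∞ 0 u := reg0_iff_at.2 fun y => fr_at hu (mem_univ y)
  generalize hτ : (fun y => tens (ι × ι) ι' (tens ι ι (e y) (e y)) (dfr (A.v x y))) = τ at hT
  refine ⟨W ∩ D.U x, e, coef τ u, ⟨hx, D.mem x⟩, inter_subset_right, he',
    coef_hol hT hr (fun y => hu.sec y (mem_univ y)) fun y _ => hu.hol y (mem_univ y),
    fun y hy => ⟨fun h0 => hu.ne y (mem_univ y)
      ((coef_eq_zero (hT.sec y hy) (hu.sec y (mem_univ y)) (hT.ne y hy)).1 h0), fun j k => ?_⟩⟩
  have h1 := coef_smul (hT.sec y hy) (hu.sec y (mem_univ y)) (hT.ne y hy)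
  have h2 := H365.pr_dfr (A.v_ne x y hy.2)
  generalize coef τ u y = c at h1 ⊢
  subst hτ
  change ∑ r, u y ((j, k), r) * A.s y r = _
  rw [h1, A.s_eq x y hy.2, ← mul_one (c * _ * _), ← h2, pr, Finset.mul_sum]
  refine Finset.sum_congr rfl fun r _ => ?_
  simp only [PiLp.smul_apply, smul_eq_mul, H662.tens_apply]
  ring

end Vale.Agent.P290Z.Nk.N1
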